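import Vale.Agent.N038.Main

/-!
Two vertices with a large second neighbourhood in every oriented graph without a sink.
-/

open Vale.Agent.N038

universe u

theorem Vale.Agent.Results.P038.A0TwoVertices.result {V : Type u} [Finite V] [Nonempty V]
    (D : V → V → Prop) (hloop : ∀ v, ¬ D v v) (hopp : ∀ u v, D u v → ¬ D v u)
    (hsink : ∀ v, ∃ x, D v x) :
    ∃ v v', v ≠ v' ∧ (outN D v).ncard ≤ (secN D v).ncard ∧
      (outN D v').ncard ≤ (secN D v').ncard :=
  have := Fintype.ofFinite V
  (main D ⟨hloop, hopp⟩).2.1 hsink
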